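import Vale.Agent.P205.H366.FlexGeo

/-!
P205, flexibility: on a closed surface there are smooth isometric immersions into arbitrarily small
balls of `ℝ⁴`, with arbitrarily large second derivatives at every point; infinitely many of them,
pairwise nowhere locally congruent.
-/

noncomputable section

set_option linter.unusedSectionVars false

open scoped Manifold ContDiff Topology
open Set Filter

namespace Vale.Agent.P205.H366

open Vale.Agent.P205.F Vale.Agent.P205.TW Vale.Agent.P205.TW.Data Vale.Agent.P205.TW.DC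

universe u

section local_

variable {E : Type*} [NormedAddCommGroup E] [NormedSpace ℝ E]
  {M : Type*} [TopologicalSpace M] [ChartedSpace E M]
  {A : Type} [Fintype A] (K : Cov E M) (b : Module.Basis A ℝ E)
  {F : Type*} [NormedAddCommGroup F] [NormedSpace ℝ F]

/-- the derivations are local -/
theorem Dv_congr_on {u v : M → F} {U : Set M} (hU : IsOpen U) (h : ∀ p ∈ U, u p = v p)
    (j : Fin K.n × A) : ∀ p ∈ U, K.Dv b j u p = K.Dv b j v p := by
  intro p hp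
  by_cases hs : p ∈ (K.ph j.1).source
  · have h1 : ContinuousAt (K.ph j.1).symm (K.ph j.1 p) :=
      continuousAt_extChartAt_symm'' ((K.ph j.1).map_source hs)
    have h2 : (K.ph j.1).symm (K.ph j.1 p) = p := (K.ph j.1).left_inv hs
    have h3 : ∀ᶠ y in 𝓝 (K.ph j.1 p), (K.ph j.1).symm y ∈ U := by
      refine h1.eventually ?_
      rw [h2]
      exact hU.mem_nhds hp
    have h4 : (u ∘ (K.ph j.1).symm) =ᶠ[𝓝 (K.ph j.1 p)] (v ∘ (K.ph j.1).symm) := by
      filter_upwards [h3] with y hy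
      exact h _ hy
    rw [Cov.Dv, Cov.Dv, h4.fderiv_eq]
  · rw [K.Dv_eq_zero b j u hs, K.Dv_eq_zero b j v hs]

variable [IsManifold 𝓘(ℝ, E) ∞ M]

/-- second derivatives of locally congruent maps have equal norms -/
theorem norm_Dv2_congr {H : Type*} [NormedAddCommGroup H] [InnerProductSpace ℝ H]
    {X Y : M → H} (hX : ContMDiff 𝓘(ℝ, E) 𝓘(ℝ, H) ∞ X)
    (hY : ContMDiff 𝓘(ℝ, E) 𝓘(ℝ, H) ∞ Y) {U : Set M} (hU : IsOpen U) {A' : H → H}
    (hA : Isometry A') (h : ∀ p ∈ U, X p = A' (Y p)) (j k : Fin K.n × A) :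
    ∀ p ∈ U, ‖K.Dv b j (K.Dv b k X) p‖ = ‖K.Dv b j (K.Dv b k Y) p‖ := by
  set T : H →ᵃⁱ[ℝ] H := hA.affineIsometryOfStrictConvexSpace with hT
  set L : H →L[ℝ] H := T.linearIsometry.toContinuousLinearMap with hL
  have h0 : ∀ y, A' y = L y + A' 0 := by
    intro y
    have h1 : T y = T.linearIsometry y + T 0 := by
      have := T.map_vadd 0 y
      simpa using this
    exact h1
  set c : M → H := fun _ => A' 0 with hc
  have h1 : ∀ p ∈ U, X p = ((fun p => L (Y p)) + c) p := fun p hp => by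
    rw [h p hp, h0]
    rfl
  have hLY : ContMDiff 𝓘(ℝ, E) 𝓘(ℝ, H) ∞ (fun p => L (Y p)) :=
    (L.contDiff.contMDiff (n := ∞)).comp hY
  have h2 : ∀ p ∈ U, K.Dv b k X p = L (K.Dv b k Y p) := fun p hp => by
    rw [Dv_congr_on K b hU h1 k p hp, K.Dv_add b hLY contMDiff_const, K.Dv_const b,
      K.Dv_clm b L hY, add_zero]
  intro p hp
  rw [Dv_congr_on K b hU h2 j p hp, K.Dv_clm b L (K.Dv_contMDiff b hY k)]
  exact T.linearIsometry.norm_map _

/-- the second derivatives are bounded -/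
theorem exists_bound_Dv2 [CompactSpace M] {X : M → F} (hX : ContMDiff 𝓘(ℝ, E) 𝓘(ℝ, F) ∞ X) :
    ∃ B : ℝ, ∀ j k p, ‖K.Dv b j (K.Dv b k X) p‖ ≤ B := by
  obtain ⟨B, -, hB⟩ := It.unif (α := (Fin K.n × A) × (Fin K.n × A))
    (p := fun x C => ∀ p, ‖K.Dv b x.1 (K.Dv b x.2 X) p‖ ≤ C)
    (fun a C C' h h' p => (h' p).trans h) (fun x => by
      obtain ⟨C, hC⟩ := (isCompact_univ (X := M)).exists_bound_of_continuousOn
        (K.Dv_contMDiff b (K.Dv_contMDiff b hX x.2) x.1).continuous.continuousOn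
      exact ⟨C, fun p => hC p (mem_univ p)⟩)
  exact ⟨B, fun j k p => hB (j, k) p⟩

end local_

section main

variable {E : Type} [NormedAddCommGroup E] [NormedSpace ℝ E]
  {M : Type u} [TopologicalSpace M] [ChartedSpace E M] (K : Cov E M)
  (b : Module.Basis (Fin 2) ℝ E) [IsManifold 𝓘(ℝ, E) ∞ M] [CompactSpace M]
  (g : Bundle.ContMDiffRiemannianMetric 𝓘(ℝ, E) ∞ E (fun x : M => TangentSpace 𝓘(ℝ, E) x))

/-- exact maps on the surface: small, with large second derivatives -/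
theorem exists_exact [FiniteDimensional ℝ E] [T2Space M] [Nonempty M] (H : ImmN E M) {ρ : ℝ}
    (hρ : 0 < ρ) (R : ℝ) : ∃ F : Fin 4 → M → ℂ, (∀ a, (K.dalg b).Sm (F a)) ∧ (∀ a, Rl (F a)) ∧
      (∀ j k p, (K.dalg b).met F j k p = K.G b g j k p) ∧ (∀ a p, ‖F a p‖ ≤ 3 * ρ) ∧
      ∀ p, ∃ j k a, R ≤ ‖(K.dalg b).D j ((K.dalg b).D k (F a)) p‖ := by
  have hT : (K.dalg b).T1U' := DAlg.iter' (K.dalg b) (fun Q _ => DAlg.stageF_all (K.dalg b) Q)
    (DAlg.pieces _) (K.complete b) (K.smoothing b)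
  have hS : (K.dalg b).T1S' (K.G b g) :=
    hT.t1s (K.G_isT b g) (K.G_rl b g) (K.G_contMDiff b g) (fun _ h0 => K.exists_boxes b g h0)
  refine descend' (lineM K b H) hS hρ (fun κ1 hκ1 => ?_) R
  obtain ⟨D⟩ := exists_mdataN K b H
  obtain ⟨D', hD'⟩ := geoC_small (posS_cover (posS_dalg K b))
    (dIn K b H D g (primC_cover K b H _ (gC_pos K b H g))) hρ
  exact ⟨D'.X0, hD', model_of' D' (nashC (dim2_cover K b H)) chiC (TData.lowerC _) (tensC D') hκ1⟩

/-- a real exact map is an isometric map into `ℝ⁴` (explicit form of `Cov.exists_real`) -/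
theorem real_isom (F : Fin 4 → M → ℂ) (hF : ∀ a, (K.dalg b).Sm (F a)) (hr : ∀ a, Rl (F a))
    (hm : ∀ j k p, (K.dalg b).met F j k p = K.G b g j k p) (m : M)
    (v w : TangentSpace 𝓘(ℝ, E) m) :
    ∑ i, mvfderiv 𝓘(ℝ, E) (fun p => (F i p).re) m v * mvfderiv 𝓘(ℝ, E) (fun p => (F i p).re) m w =
      g.inner m v w := by
  have hX : ∀ i, ContMDiff 𝓘(ℝ, E) 𝓘(ℝ, ℝ) ∞ (fun p => (F i p).re) :=
    fun i => Cov.contMDiff_re (hF i)
  have hFX : ∀ i, F i = fun p => (((F i p).re : ℝ) : ℂ) := by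
    intro i
    funext p
    exact Complex.ext (by simp) (by simpa using hr i p)
  have hD : ∀ j i p, K.Dv b j (F i) p = ((K.Dv b j (fun p => (F i p).re) p : ℝ) : ℂ) := by
    intro j i p
    conv_lhs => rw [hFX i]
    rw [K.Dv_ofReal b (hX i)]
  have hm' : ∀ j k, ∑ i, K.Dv b j (fun p => (F i p).re) m * K.Dv b k (fun p => (F i p).re) m =
      g.inner m (K.X b j m) (K.X b k m) := by
    intro j k
    have h1 := hm j k m
    have h2 : (K.dalg b).met F j k m =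
        ((∑ i, K.Dv b j (fun p => (F i p).re) m * K.Dv b k (fun p => (F i p).re) m : ℝ) : ℂ) := by
      rw [DAlg.met, dot]
      push_cast
      refine Finset.sum_congr rfl fun i _ => ?_
      rw [← hD, ← hD]
      rfl
    rw [h2] at h1
    have h3 : K.G b g j k m = ((g.inner m (K.X b j m) (K.X b k m) : ℝ) : ℂ) := rfl
    rw [h3] at h1
    exact_mod_cast h1
  obtain ⟨i, hi⟩ := K.cov m
  have hv := K.X_span b (K.V_sub i hi) v
  have hw := K.X_span b (K.V_sub i hi) w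
  rw [K.one i m hi, one_smul] at hv hw
  let T : Fin 4 → E →L[ℝ] ℝ := fun q => mfderiv 𝓘(ℝ, E) 𝓘(ℝ, ℝ) (fun p => (F q p).re) m
  let G : E →L[ℝ] E →L[ℝ] ℝ := g.inner m
  let x : Fin 2 → E := fun a => K.X b (i, a) m
  have hT : ∀ q a, T q (x a) = K.Dv b (i, a) (fun p => (F q p).re) m := fun q a =>
    (K.Dv_eq b (hX q) (i, a) m).symm
  have hG : ∀ a a', G (x a) (x a') = g.inner m (K.X b (i, a) m) (K.X b (i, a') m) :=
    fun _ _ => rfl
  have key := real_bilin T G x (fun a a' => by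
      rw [hG, ← hm' (i, a) (i, a')]
      exact Finset.sum_congr rfl fun q _ => by rw [hT, hT])
    (fun a => b.repr (mfderiv 𝓘(ℝ, E) 𝓘(ℝ, E) (K.ph i) m v : E) a)
    (fun a => b.repr (mfderiv 𝓘(ℝ, E) 𝓘(ℝ, E) (K.ph i) m w : E) a)
  exact real_conv (α := E) (fun x y => ∑ q, T q x * T q y = G x y) hv hw key

/-- four functions as a map into `ℝ⁴` -/
def vec {M : Type*} (X : Fin 4 → M → ℝ) (p : M) : EuclideanSpace ℝ (Fin 4) :=
  WithLp.toLp 2 fun i => X i p

theorem contMDiff_vec {X : Fin 4 → M → ℝ} (hX : ∀ i, ContMDiff 𝓘(ℝ, E) 𝓘(ℝ) ∞ (X i)) :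
    ContMDiff 𝓘(ℝ, E) 𝓘(ℝ, EuclideanSpace ℝ (Fin 4)) ∞ (vec X) := by
  have h1 : ContMDiff 𝓘(ℝ, E) 𝓘(ℝ, Fin 4 → ℝ) ∞ (fun p i => X i p) :=
    contMDiff_pi_space.2 hX
  exact ((EuclideanSpace.equiv (Fin 4) ℝ).symm.contDiff.contMDiff (n := ∞)).comp h1

/-- isometric immersions, small and with large second derivatives -/
theorem exists_large [FiniteDimensional ℝ E] [T2Space M] [Nonempty M] (H : ImmN E M) {ρ : ℝ}
    (hρ : 0 < ρ) (R : ℝ) : ∃ X : Fin 4 → M → ℝ, (∀ i, ContMDiff 𝓘(ℝ, E) 𝓘(ℝ) ∞ (X i)) ∧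
      (∀ (m : M) (v w : TangentSpace 𝓘(ℝ, E) m),
        ∑ i, mvfderiv 𝓘(ℝ, E) (X i) m v * mvfderiv 𝓘(ℝ, E) (X i) m w = g.inner m v w) ∧
      (∀ m, ∑ i, X i m ^ 2 ≤ ρ ^ 2) ∧
      ∀ p, ∃ j k, R ≤ ‖K.Dv b j (K.Dv b k (vec X)) p‖ := by
  obtain ⟨F, h1, h2, h3, h4, h5⟩ := exists_exact K b g H (ρ := ρ / 6) (by positivity) R
  have hX : ∀ i, ContMDiff 𝓘(ℝ, E) 𝓘(ℝ, ℝ) ∞ (fun p => (F i p).re) :=
    fun i => Cov.contMDiff_re (h1 i)
  refine ⟨fun i p => (F i p).re, hX, real_isom K b g F h1 h2 h3, fun m => ?_, fun p => ?_⟩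
  · have h6 : ∀ i, (F i m).re ^ 2 ≤ (ρ / 2) ^ 2 := fun i => by
      have h7 : |(F i m).re| ≤ ρ / 2 := (Complex.abs_re_le_norm _).trans
        ((h4 i m).trans (le_of_eq (by ring)))
      rw [← sq_abs]
      exact pow_le_pow_left₀ (abs_nonneg _) h7 2
    calc ∑ i, (F i m).re ^ 2 ≤ ∑ _i : Fin 4, (ρ / 2) ^ 2 := Finset.sum_le_sum fun i _ => h6 i
      _ = ρ ^ 2 := by simp; ring
  · obtain ⟨j, k, a, h6⟩ := h5 p
    refine ⟨j, k, h6.trans ?_⟩
    have hFa : F a = fun p => (((F a p).re : ℝ) : ℂ) := by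
      funext p
      exact Complex.ext (by simp) (by simpa using h2 a p)
    have e1 : (K.dalg b).D j ((K.dalg b).D k (F a)) p =
        ((K.Dv b j (K.Dv b k (fun p => (F a p).re)) p : ℝ) : ℂ) := by
      rw [Cov.dalg_D, Cov.dalg_D]
      conv_lhs => rw [hFa]
      rw [K.Dv_ofReal b (hX a), K.Dv_ofReal b (K.Dv_contMDiff b (hX a) k)]
    rw [e1, Complex.norm_real]
    have hv := contMDiff_vec hX
    have e2 : K.Dv b k (fun p => (F a p).re) = fun p =>
        (EuclideanSpace.proj a : EuclideanSpace ℝ (Fin 4) →L[ℝ] ℝ)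
          (K.Dv b k (vec fun i p => (F i p).re) p) :=
      K.Dv_clm b (EuclideanSpace.proj a : EuclideanSpace ℝ (Fin 4) →L[ℝ] ℝ) hv k
    have e3 : K.Dv b j (K.Dv b k (fun p => (F a p).re)) p =
        (EuclideanSpace.proj a : EuclideanSpace ℝ (Fin 4) →L[ℝ] ℝ)
          (K.Dv b j (K.Dv b k (vec fun i p => (F i p).re)) p) := by
      rw [e2, K.Dv_clm b (EuclideanSpace.proj a : EuclideanSpace ℝ (Fin 4) →L[ℝ] ℝ)
        (K.Dv_contMDiff b hv k)]
    rw [e3]
    exact PiLp.norm_apply_le (p := 2) (β := fun _ : Fin 4 => ℝ)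
      (K.Dv b j (K.Dv b k (vec fun i p => (F i p).re)) p) a

end main

/-- **Flexibility.** A closed Riemannian surface has infinitely many smooth isometric immersions
into any ball of `ℝ⁴`, pairwise nowhere locally congruent. -/
theorem flexible {E : Type} [NormedAddCommGroup E] [NormedSpace ℝ E]
    (hE : Module.finrank ℝ E = 2) {M : Type u} [TopologicalSpace M] [T2Space M] [CompactSpace M]
    [ChartedSpace E M] [IsManifold 𝓘(ℝ, E) ∞ M]
    (g : Bundle.ContMDiffRiemannianMetric 𝓘(ℝ, E) ∞ E (fun x : M => TangentSpace 𝓘(ℝ, E) x))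
    {ρ : ℝ} (hρ : 0 < ρ) :
    ∃ X : ℕ → Fin 4 → M → ℝ, (∀ n i, ContMDiff 𝓘(ℝ, E) 𝓘(ℝ) ∞ (X n i)) ∧
      (∀ n (m : M) (v w : TangentSpace 𝓘(ℝ, E) m),
        ∑ i, mvfderiv 𝓘(ℝ, E) (X n i) m v * mvfderiv 𝓘(ℝ, E) (X n i) m w = g.inner m v w) ∧
      (∀ n m, ∑ i, X n i m ^ 2 ≤ ρ ^ 2) ∧
      ∀ n n', n ≠ n' → ∀ U : Set M, IsOpen U → U.Nonempty →
        ∀ A : EuclideanSpace ℝ (Fin 4) → EuclideanSpace ℝ (Fin 4), Isometry A →
          ¬ ∀ m ∈ U, WithLp.toLp 2 (fun i => X n i m) = A (WithLp.toLp 2 fun i => X n' i m) := by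
  rcases isEmpty_or_nonempty M with he | he
  · exact ⟨fun _ _ _ => 0, fun _ _ => contMDiff_const, fun _ m => (he.false m).elim,
      fun _ m => (he.false m).elim, fun _ _ _ _ _ hU => (he.false hU.some).elim⟩
  have hfin : FiniteDimensional ℝ E :=
    FiniteDimensional.of_finrank_pos (by rw [hE]; exact two_pos)
  obtain ⟨K⟩ := Cov.exists (E := E) (M := M)
  have b := Module.finBasisOfFinrankEq ℝ E hE
  obtain ⟨H⟩ := exists_immN (E := E) (M := M) hE
  choose Y hY1 hY2 hY3 hY4 using fun R => exists_large K b g H hρ R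
  choose B hB using fun R => exists_bound_Dv2 K b (contMDiff_vec (hY1 R))
  let r : ℕ → ℝ := fun n => Nat.rec 0 (fun _ x => max x (B x) + 1) n
  have hrs : ∀ n, r (n + 1) = max (r n) (B (r n)) + 1 := fun n => rfl
  have hrm : Monotone r := monotone_nat_of_le_succ fun n => by
    rw [hrs]
    linarith [le_max_left (r n) (B (r n))]
  have hrB : ∀ m n, m < n → B (r m) < r n := fun m n hmn => by
    have h1 : r (m + 1) ≤ r n := hrm hmn
    rw [hrs] at h1
    linarith [le_max_right (r m) (B (r m))]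
  refine ⟨fun n => Y (r n), fun n i => hY1 _ i, fun n => hY2 _, fun n => hY3 _,
    fun n n' hnn U hU hne A hA hcon => ?_⟩
  obtain ⟨p, hp⟩ := hne
  have key := norm_Dv2_congr K b (contMDiff_vec (hY1 (r n))) (contMDiff_vec (hY1 (r n'))) hU hA
    (fun q hq => hcon q hq)
  rcases lt_or_gt_of_ne hnn with hlt | hlt
  · obtain ⟨j, k, h1⟩ := hY4 (r n') p
    have h2 := key j k p hp
    have h3 := hB (r n) j k p
    have h4 := hrB n n' hlt
    linarith
  · obtain ⟨j, k, h1⟩ := hY4 (r n) p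
    have h2 := key j k p hp
    have h3 := hB (r n') j k p
    have h4 := hrB n' n hlt
    linarith

end Vale.Agent.P205.H366

end
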