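import Vale.Agent.P205.Bdl.B10

/-!
P205, flexibility: the perturbation theorem with control of the distance to the initial map and of
the second derivatives (variants of the final steps of `Bdl.B7`, `Bdl.B10`).
-/

open Filter Topology

noncomputable section

namespace Vale.Agent.P205.F.It

universe u

variable {P : Type u} {κ : Type} (S : DAlg P κ)

/-- steps along the numeric sequences give an exact solution, which is the limit of the states -/
theorem exists_of_steps' (hC : S.Complete) (G : κ → κ → P → ℂ) (Lam C1 : ℝ)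
    (C0 : κ → κ → P → ℝ) (hLam : 1 ≤ Lam)
    (hC1 : 0 ≤ C1) (n : ℕ → ℕ) (mu d : ℕ → ℝ) (hn : Tendsto n atTop atTop)
    (hmu : ∀ q, 1 ≤ mu q) (hd : ∀ q, 0 < d q) (hds : Summable fun q => d q ^ (1 / 10 : ℝ))
    (hdk : ∀ k : ℕ, ∀ᶠ q in atTop, mu (q + 1) ^ k * d q ^ (2 / 5 : ℝ) ≤ d q ^ (1 / 5 : ℝ))
    (H : ℕ → (Fin 4 → P → ℂ) → Prop) (f0 : Fin 4 → P → ℂ) (h0 : H 0 f0)
    (hsm : ∀ q f, H q f → ∀ a, S.Sm (f a)) (hrl : ∀ q f, H q f → ∀ a, Rl (f a))
    (hmet : ∀ q f, H q f → ∀ j k p, ‖G j k p - S.met f j k p‖ ≤ C0 j k p * d q)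
    (step : ∀ q f, H q f → ∃ f', H (q + 1) f' ∧ ∀ a, ∀ w : List κ, w.length ≤ n q → ∀ p,
      ‖S.wd w (f' a - f a) p‖ ≤ C1 * (Lam * mu (q + 1)) ^ w.length * d q ^ (2 / 5 : ℝ)) :
    ∃ F : Fin 4 → P → ℂ, (∀ a, S.Sm (F a)) ∧ (∀ a, Rl (F a)) ∧
      (∀ j k p, S.met F j k p = G j k p) ∧ ∃ f : ℕ → Fin 4 → P → ℂ, (∀ q, H q (f q)) ∧
        ∀ (w : List κ) a p, Tendsto (fun q => S.wd w (f q a) p) atTop (𝓝 (S.wd w (F a) p)) := by
  obtain ⟨f, hf0, hf⟩ := exists_chain H (fun q f f' => ∀ a, ∀ w : List κ, w.length ≤ n q → ∀ p,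
      ‖S.wd w (f' a - f a) p‖ ≤ C1 * (Lam * mu (q + 1)) ^ w.length * d q ^ (2 / 5 : ℝ)) f0 h0
      step
  have hd0 : Tendsto d atTop (𝓝 0) := by
    have h1 := hds.tendsto_atTop_zero
    have h2 : Tendsto (fun x : ℝ => x ^ (10 : ℝ)) (𝓝 0) (𝓝 0) := by
      have := (Real.continuous_rpow_const (q := (10 : ℝ)) (by norm_num)).tendsto 0
      rwa [Real.zero_rpow (by norm_num)] at this
    refine (h2.comp h1).congr fun q => ?_
    change (d q ^ (1 / 10 : ℝ)) ^ (10 : ℝ) = d q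
    rw [← Real.rpow_mul (hd q).le]
    norm_num
  have hdle : ∀ᶠ q in atTop, d q ≤ 1 := by
    filter_upwards [hd0.eventually (gt_mem_nhds (show (0 : ℝ) < 1 by norm_num))] with q hq
    exact hq.le
  have h5 : Summable fun q => d q ^ (1 / 5 : ℝ) := by
    obtain ⟨q0, hq0⟩ := eventually_atTop.1 hdle
    rw [← summable_nat_add_iff q0]
    refine Summable.of_nonneg_of_le (fun q => Real.rpow_nonneg (hd _).le _) (fun q => ?_)
      ((summable_nat_add_iff q0).2 hds)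
    exact Real.rpow_le_rpow_of_exponent_ge (hd _) (hq0 _ (by omega)) (by norm_num)
  have h25 : Summable fun q => d q ^ (2 / 5 : ℝ) := by
    obtain ⟨q0, hq0⟩ := eventually_atTop.1 hdle
    rw [← summable_nat_add_iff q0]
    refine Summable.of_nonneg_of_le (fun q => Real.rpow_nonneg (hd _).le _) (fun q => ?_)
      ((summable_nat_add_iff q0).2 hds)
    exact Real.rpow_le_rpow_of_exponent_ge (hd _) (hq0 _ (by omega)) (by norm_num)
  have hLm : ∀ q, 1 ≤ Lam * mu q := fun q => by linarith only [mul_nonneg (sub_nonneg.2 hLam) (sub_nonneg.2 (hmu q)), hmu q, hLam]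
  have hS : ∀ a k, ∃ c : ℕ → ℝ, Summable c ∧ ∃ q0, ∀ q, q0 ≤ q →
      S.Nb k (c q) (f (q + 1) a - f q a) := by
    intro a k
    refine ⟨fun q => C1 * Lam ^ k * d q ^ (1 / 5 : ℝ), h5.mul_left _, ?_⟩
    obtain ⟨q1, hq1⟩ := eventually_atTop.1 (hdk k)
    obtain ⟨q2, hq2⟩ := eventually_atTop.1 (hn.eventually_ge_atTop k)
    refine ⟨max q1 q2, fun q hq => ?_⟩
    intro w hw p
    have h1 := (hf q).2 a w (hw.trans (hq2 q (le_of_max_le_right hq))) p
    refine h1.trans ?_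
    have h2 : (Lam * mu (q + 1)) ^ w.length ≤ (Lam * mu (q + 1)) ^ k :=
      pow_le_pow_right₀ (hLm (q + 1)) hw
    have h3 := hq1 q (le_of_max_le_left hq)
    have h4 : 0 ≤ d q ^ (2 / 5 : ℝ) := Real.rpow_nonneg (hd q).le _
    calc C1 * (Lam * mu (q + 1)) ^ w.length * d q ^ (2 / 5 : ℝ)
        ≤ C1 * (Lam * mu (q + 1)) ^ k * d q ^ (2 / 5 : ℝ) := by gcongr
      _ = C1 * Lam ^ k * (mu (q + 1) ^ k * d q ^ (2 / 5 : ℝ)) := by rw [mul_pow]; ring
      _ ≤ C1 * Lam ^ k * d q ^ (1 / 5 : ℝ) := by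
          apply mul_le_mul_of_nonneg_left h3
          positivity
  obtain ⟨F, hF, hFr, hFt, hFm⟩ := exists_limit S hC G f (fun q => hsm q _ (hf q).1)
    (fun q => hrl q _ (hf q).1) hS
    (fun j k p => squeeze_zero_norm (fun q => hmet q _ (hf q).1 j k p)
      (by simpa using hd0.const_mul (C0 j k p)))
  exact ⟨F, hF, hFr, hFm, f, fun q => (hf q).1, hFt⟩

end Vale.Agent.P205.F.It

namespace Vale.Agent.P205.F

namespace It

universe u

variable {P : Type u} {κ : Type} (S : DAlg P κ)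

theorem assemble' {ι : Type u} (hC : S.Complete) (G : κ → κ → P → ℂ)
    (f : ι → Fin 4 → P → ℂ) (b del : ι → ℝ) (A e0 : ℝ) (hb : ∀ i, 1 ≤ b i) (hA : 1 ≤ A)
    (he0 : 0 < e0) (hdel : ∀ i, 0 < del i) (h1 : First S G f b del A)
    (h2 : ∀ t, 10 ≤ t → Step S G f b A e0 t) :
    ∀ e1 : ℝ, 0 < e1 → ∃ d0, 0 < d0 ∧ ∀ i, del i ≤ d0 → ∃ F : Fin 4 → P → ℂ,
      (∀ a, S.Sm (F a)) ∧ (∀ a, Rl (F a)) ∧ (∀ j k p, S.met F j k p = G j k p) ∧
      (∀ a p, ‖F a p - f i a p‖ ≤ e1) ∧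
      ∀ j k a p, ‖S.D j (S.D k (F a)) p - S.D j (S.D k (f i a)) p‖ ≤ e1 * b i := by
  intro e1' he1'
  obtain ⟨zF, hzF1, hzF⟩ := h1 (1600 * t 1 + 2)
  choose zS hzS1 hzS using fun n => h2 (t n) (ten_le_t n) (1600 * t (n + 1) + 2)
  obtain ⟨Kw, hKw⟩ := exists_seq 0
  obtain ⟨d1, hd1, hseq⟩ := hKw (fun n => max zF (zS n))
  refine ⟨min d1 (min 1 ((min e0 e1' / 2) ^ 4)), by
    have : 0 < min e0 e1' := lt_min he0 he1'
    positivity, ?_⟩
  intro i hi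
  have hi1 : del i ≤ d1 := hi.trans (min_le_left _ _)
  have hi2 : del i ≤ 1 := hi.trans ((min_le_right _ _).trans (min_le_left _ _))
  have hm0 : 0 < min e0 e1' := lt_min he0 he1'
  have hi3 : del i ≤ (min e0 e1' / 2) ^ 4 :=
    hi.trans ((min_le_right _ _).trans (min_le_right _ _))
  obtain ⟨n, z, mu, d, hn0, hmu0, hd0, hnst, hnt, hall, hdpos, hds10, hds4, hdsum, hdk⟩ :=
    hseq 1 1 (del i) le_rfl le_rfl (hdel i) hi1 (by simpa using hi2) (by simpa using hi2)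
  have hz1 : ∀ q, 1 ≤ z q := fun q => (hall q).1
  have hz0 : ∀ q, 0 < z q := fun q => by linarith only [hz1 q]
  have hbi := hb i
  have hb0 : 0 < b i := by linarith only [hbi]
  have hmu1 : ∀ q, 1 ≤ mu q := fun q => (hall q).2.2.2.1
  have hdz : ∀ q, d q * z q ^ (400 * t (n q)) = 1 := fun q => (hall q).2.2.2.2.2.1
  have hdz' : ∀ q, d (q + 1) * z q ^ (500 * t (n q)) = 1 := fun q => (hall q).2.2.2.2.2.2.1
  have hdq : ∀ q, d q = (z q ^ (400 * t (n q)))⁻¹ := fun q => eq_inv_of_mul_eq_one_left (hdz q)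
  have hdq' : ∀ q, d (q + 1) = (z q ^ (500 * t (n q)))⁻¹ :=
    fun q => eq_inv_of_mul_eq_one_left (hdz' q)
  have hmus : ∀ q, mu (q + 1) = mu q * z q ^ 4 := fun q => (hall q).2.2.2.2.2.2.2
  have hzz : ∀ q, zF ≤ z q ∧ zS (n q) ≤ z q := fun q =>
    ⟨(le_max_left _ _).trans (hall q).2.1, (le_max_right _ _).trans (hall q).2.1⟩
  have hlev : ∀ q, z (q + 1) ^ (404 * t (n (q + 1))) = z q ^ (505 * t (n q)) := by
    intro q
    apply level_eq (hz0 q) (hz0 (q + 1))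
    have := hdq (q + 1)
    rw [hdq' q] at this
    exact (inv_inj.1 this).symm
  -- the distances
  set e : ℕ → ℝ := fun q => ∑ r ∈ Finset.range q, d r ^ (1 / 4 : ℝ) with he
  have hes : ∀ q, e (q + 1) = e q + d q ^ (1 / 4 : ℝ) := fun q => Finset.sum_range_succ _ _
  have hq4 : ∀ q, d q ^ (1 / 4 : ℝ) = (z q ^ (100 * t (n q)))⁻¹ :=
    fun q => rpow_quarter (hz0 q) (hdz q)
  have hen : ∀ q, 0 ≤ e q := fun q =>
    Finset.sum_nonneg fun r _ => Real.rpow_nonneg (hdpos r).le _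
  have hele1 : ∀ q, e q ≤ min e0 e1' := by
    intro q
    have h3 : e q ≤ ∑' q, d q ^ (1 / 4 : ℝ) :=
      hds4.sum_le_tsum _ (fun i _ => Real.rpow_nonneg (hdpos i).le _)
    have h4 : del i ^ (1 / 4 : ℝ) ≤ min e0 e1' / 2 := by
      have h5 := Real.rpow_le_rpow (hdel i).le hi3 (show (0 : ℝ) ≤ 1 / 4 by norm_num)
      have h6 : ((min e0 e1' / 2) ^ 4) ^ (1 / 4 : ℝ) = min e0 e1' / 2 := by
        rw [← Real.rpow_natCast, ← Real.rpow_mul (by positivity)]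
        norm_num
      rwa [h6] at h5
    linarith only [h4, h3, hdsum]
  have hele : ∀ q, e q ≤ e0 := fun q => (hele1 q).trans (min_le_left _ _)
  have hN : ∀ q, 1600 * t (n (q + 1)) + 2 ≤ 1600 * t (n q + 1) + 2 := by
    intro q
    have := t_mono (hnst q).2
    omega
  -- the states
  set H : ℕ → (Fin 4 → P → ℂ) → Prop := fun q X =>
    Inv S G (f i) (b i) A (1600 * t (n (q + 1)) + 2) (d (q + 1))
      ((z (q + 1) ^ (404 * t (n (q + 1))))⁻¹) (b i * mu (q + 1)) (e (q + 1)) X with hH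
  have ht0 : t 0 = 10 := rfl
  -- the first state
  obtain ⟨X1, hX1⟩ : ∃ X, H 0 X := by
    have hz : del i * z 0 ^ (400 * 10) = 1 := by
      have := hdz 0
      rwa [hn0, ht0, hd0] at this
    obtain ⟨X, hX⟩ := hzF i (z 0) (hzz 0).1 hz
    refine ⟨X, ?_⟩
    change Inv S G (f i) (b i) A (1600 * t (n 1) + 2) (d 1)
      ((z 1 ^ (404 * t (n 1)))⁻¹) (b i * mu 1) (e 1) X
    have e1 : d 1 = (z 0 ^ (500 * 10))⁻¹ := by
      have := hdq' 0
      rwa [hn0, ht0] at this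
    have e2 : z 1 ^ (404 * t (n 1)) = z 0 ^ (505 * 10) := by
      have := hlev 0
      rwa [hn0, ht0] at this
    have e3 : mu 1 = z 0 ^ 4 := by
      have := hmus 0
      rwa [hmu0, one_mul] at this
    have e4 : e 1 = (z 0 ^ (100 * 10))⁻¹ := by
      have h7 := hq4 0
      rw [hn0, ht0] at h7
      simp only [he, Finset.range_one, Finset.sum_singleton]
      exact h7
    rw [e1, e2, e3, e4]
    have hz00 := hz0 0
    refine hX.mono ?_ (by positivity) le_rfl le_rfl hb0.le (by linarith only [hA]) (by positivity)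
    have := hN 0
    rwa [hn0] at this
  -- the steps
  have hmetG : ∀ q X, H q X → ∀ j k p,
      ‖G j k p - S.met X j k p‖ ≤ (1 + ‖G j k p‖) * d (q + 1) := by
    intro q X hX j k p
    have h3 := hX.bE j k [] (Nat.zero_le _) p
    simp only [DAlg.wd, List.length_nil, pow_zero, mul_one] at h3
    have hzq := hz1 (q + 1)
    have h4 : (z (q + 1) ^ (404 * t (n (q + 1))))⁻¹ ≤ d (q + 1) := by
      rw [hdq (q + 1)]
      exact inv_pow_le hzq (by omega)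
    have h5 : ‖(d (q + 1) : ℂ) * G j k p‖ = d (q + 1) * ‖G j k p‖ := by
      rw [norm_mul, Complex.norm_real, Real.norm_eq_abs, abs_of_pos (hdpos _)]
    calc ‖G j k p - S.met X j k p‖
        = ‖(G j k p - S.met X j k p - d (q + 1) * G j k p) + d (q + 1) * G j k p‖ := by
          congr 1
          ring
      _ ≤ ‖G j k p - S.met X j k p - d (q + 1) * G j k p‖ + ‖(d (q + 1) : ℂ) * G j k p‖ :=
          norm_add_le _ _
      _ ≤ d (q + 1) + d (q + 1) * ‖G j k p‖ := by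
          rw [h5]
          exact add_le_add (h3.trans h4) le_rfl
      _ = (1 + ‖G j k p‖) * d (q + 1) := by ring
  have hst : ∀ q X, H q X → ∃ Y, H (q + 1) Y ∧ ∀ a, ∀ w : List κ, w.length ≤ n (q + 1) → ∀ p,
      ‖S.wd w (Y a - X a) p‖ ≤
        1 * (b i * mu (q + 1 + 1)) ^ w.length * d (q + 1) ^ (2 / 5 : ℝ) := by
    intro q X hX
    have hzp := hz0 (q + 1)
    have hb1 : b i ≤ b i * mu (q + 1) := by linarith only [mul_nonneg (le_of_lt (sub_pos.2 hb0)) (sub_nonneg.2 (hmu1 (q + 1)))]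
    have hb2 : b i * mu (q + 1) ≤ b i * z (q + 1) ^ 32 :=
      mul_le_mul_of_nonneg_left (hall (q + 1)).2.2.2.2.1 hb0.le
    have hb3 : e (q + 1) + (z (q + 1) ^ (100 * t (n (q + 1))))⁻¹ ≤ e0 := by
      rw [← hq4 (q + 1), ← hes (q + 1)]
      exact hele _
    have hX' : Inv S G (f i) (b i) A (1600 * t (n (q + 1)) + 2)
        ((z (q + 1) ^ (400 * t (n (q + 1))))⁻¹) ((z (q + 1) ^ (404 * t (n (q + 1))))⁻¹)
        (b i * mu (q + 1)) (e (q + 1)) X := by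
      have := hX
      simp only [hH] at this
      rwa [hdq (q + 1)] at this
    obtain ⟨Y, hY, hY2⟩ := hzS (n (q + 1)) i (z (q + 1)) (b i * mu (q + 1)) (e (q + 1)) X
      (hzz (q + 1)).2 hb1 hb2 (hen _) hb3 hX'
    refine ⟨Y, ?_, ?_⟩
    · change Inv S G (f i) (b i) A (1600 * t (n (q + 1 + 1)) + 2) (d (q + 1 + 1))
        ((z (q + 1 + 1) ^ (404 * t (n (q + 1 + 1))))⁻¹) (b i * mu (q + 1 + 1))
        (e (q + 1 + 1)) Y
      rw [hdq' (q + 1), hlev (q + 1), hmus (q + 1), hes (q + 1), hq4 (q + 1), ← mul_assoc]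
      exact hY.mono (hN (q + 1)) (by positivity) le_rfl le_rfl hb0.le (by linarith)
        (by have := hmu1 (q + 1); positivity)
    · intro a w hw p
      have h3 : w.length ≤ 400 * t (n (q + 1)) := by
        have : n (q + 1) ≤ 400 * t (n (q + 1)) := by
          unfold t
          omega
        exact hw.trans this
      have h4 := hY2 a w h3 p
      rw [one_mul, rpow_two_fifth (hz0 (q + 1)) (hdz (q + 1)), hmus (q + 1), ← mul_assoc,
        mul_comm (_ ^ _) (_⁻¹)]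
      exact h4
  obtain ⟨F, hF1, hF2, hF3, X, hX, hXF⟩ := exists_of_steps' S hC G (b i) 1
    (fun j k p => 1 + ‖G j k p‖) hbi zero_le_one (fun q => n (q + 1)) (fun q => mu (q + 1))
    (fun q => d (q + 1)) ((tendsto_add_atTop_iff_nat 1).2 hnt) (fun q => hmu1 _)
    (fun q => hdpos _) ((summable_nat_add_iff 1).2 hds10)
    (fun k => (tendsto_add_atTop_nat 1).eventually (hdk k)) H X1 hX1
    (fun q X hX => hX.sm) (fun q X hX => hX.rl) hmetG hst
  refine ⟨F, hF1, hF2, hF3, fun a p => ?_, fun j k a p => ?_⟩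
  · have h3 : Tendsto (fun q => ‖X q a p - f i a p‖) atTop (𝓝 ‖F a p - f i a p‖) :=
      ((hXF [] a p).sub tendsto_const_nhds).norm
    refine le_of_tendsto' h3 fun q => ?_
    have h4 := (hX q).c0 a p
    exact h4.trans ((hele1 _).trans (min_le_right _ _))
  · have h3 : Tendsto (fun q => ‖S.D j (S.D k (X q a)) p - S.D j (S.D k (f i a)) p‖) atTop
        (𝓝 ‖S.D j (S.D k (F a)) p - S.D j (S.D k (f i a)) p‖) :=
      ((hXF [j, k] a p).sub tendsto_const_nhds).norm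
    refine le_of_tendsto' h3 fun q => ?_
    have h4 := (hX q).c2 j k a p
    exact h4.trans (mul_le_mul_of_nonneg_right ((hele1 _).trans (min_le_right _ _)) hb0.le)

end It

end Vale.Agent.P205.F

end

open scoped ContDiff

noncomputable section

namespace Vale.Agent.P205.F

universe u

variable {P : Type u} {κ : Type} [Fintype κ] (S : DAlg P κ)

/-- `T1U` with control of the distance to the initial map -/
def DAlg.T1U' : Prop :=
  ∃ κ0 : ℝ, 0 < κ0 ∧ ∀ (C : Type) [Fintype C] (G : κ → κ → P → ℂ), S.IsT G →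
    (∀ j k, Rl (G j k)) → (∀ j k, S.Sm (G j k)) → Boxes S C G κ0 →
    ∃ κ1 : ℝ, 0 < κ1 ∧ ∀ (ι : Type u) (Lam δ : ι → ℝ) (f : ι → Fin 4 → P → ℂ) (c0 : ℝ),
      0 < c0 → (∀ i, 1 ≤ Lam i) → (∀ i, 0 < δ i) → (∀ i, δ i ≤ 1) →
      (∀ i a, S.Sm (f i a)) → (∀ i a, Rl (f i a)) →
      (∀ a, S.FO Lam (fun _ => 1) (fun i => f i a)) →
      (∀ j a, S.FO Lam (fun _ => 1) (fun i => S.D j (f i a))) →
      (∀ i p, ∃ j1 j2 j k, c0 * Lam i ^ 2 ≤
        (gram3 (S.Dv j1 (f i)) (S.Dv j2 (f i)) (S.Dv j (S.Dv k (f i))) p).re) →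
      (∀ i j k p, ‖G j k p - S.met (f i) j k p - δ i * G j k p‖ ≤ κ1 * δ i) →
      (∀ j k, S.FO Lam δ (fun i p => G j k p - S.met (f i) j k p)) →
      ∀ e1 : ℝ, 0 < e1 → ∃ δ0 : ℝ, 0 < δ0 ∧ ∀ i, δ i ≤ δ0 →
        ∃ F : Fin 4 → P → ℂ, (∀ a, S.Sm (F a)) ∧ (∀ a, Rl (F a)) ∧
          (∀ j k p, S.met F j k p = G j k p) ∧ (∀ a p, ‖F a p - f i a p‖ ≤ e1) ∧
          ∀ j k a p, ‖S.D j (S.D k (F a)) p - S.D j (S.D k (f i a)) p‖ ≤ e1 * Lam i

/-- the iteration -/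
def DAlg.Iter' : Prop :=
  (∀ (Q : Type) [Fintype Q], S.StageF Q) → S.Pieces → S.Complete →
    (∀ m, Nonempty (S.Smoothing m)) → S.T1U'

open It in
/-- the iteration -/
theorem DAlg.iter' : S.Iter' := by
  intro hSt hPi hCo hSm
  obtain ⟨κ0, hκ0, hPi⟩ := hPi
  refine ⟨κ0, hκ0, fun C _ G iG rG sG hB => ?_⟩
  obtain ⟨κ1, hκ1, hPi⟩ := hPi C G iG rG sG hB
  refine ⟨κ1 / 2, by linarith, fun ι b δ f c0 hc0 hb hδ _ sf rf F0 F1 hgr hnear hfo => ?_⟩
  have hb0 : ∀ i, 0 ≤ b i := fun i => by linarith [hb i]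
  have F2 : ∀ j k a, S.FO b b (fun i => S.D j (S.D k (f i a))) := by
    intro j k a
    refine ⟨fun i => S.sm_D j (S.sm_D k (sf i a)), fun n => ?_⟩
    obtain ⟨C, hC, h⟩ := (F1 k a).2 (n + 1)
    refine ⟨C, hC, fun i => ?_⟩
    have := Bd.D j (h i)
    simpa using this
  obtain ⟨Q, _, d, c1, hc1, hd, hF, hn, hell⟩ := hPi ι b b f c0 hc0 hb (fun i => le_rfl) sf rf
    F1 F2 hgr
  -- constants
  obtain ⟨A1, hA1, a1⟩ := fo_pt F0
  obtain ⟨A2, hA2, a2⟩ := fo_pt (α := κ × Fin 4) (fun x => F1 x.1 x.2)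
  obtain ⟨A3, hA3, a3⟩ := unif (α := κ × κ × Fin 4)
    (p := fun x C => ∀ i p, ‖S.D x.1 (S.D x.2.1 (f i x.2.2)) p‖ ≤ C * b i)
    (fun a C C' h h' i p => (h' i p).trans (mul_le_mul_of_nonneg_right h (hb0 i)))
    (fun x => by
      obtain ⟨C, -, h⟩ := (F2 x.1 x.2.1 x.2.2).2 0
      refine ⟨C, fun i p => ?_⟩
      have := h i [] (by simp) p
      simpa [DAlg.wd] using this)
  let R := {x : Q ⊕ (Q × Q × Bool) // usedRay x}
  have ex0 : ∀ {u : ι → P → ℂ}, S.FO (fun _ => 1) (fun _ => 1) u → ∃ C, ∀ i p, ‖u i p‖ ≤ C := by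
    intro u h
    obtain ⟨C, -, h⟩ := h.2 0
    refine ⟨C, fun i p => ?_⟩
    have := h i [] (by simp) p
    simpa [DAlg.wd] using this
  have ex1 : ∀ {u : ι → P → ℂ} (l : κ), S.FO (fun _ => 1) (fun _ => 1) u →
      ∃ C, ∀ i p, ‖S.D l (u i) p‖ ≤ C := by
    intro u l h
    obtain ⟨C, -, h⟩ := h.2 1
    refine ⟨C, fun i p => ?_⟩
    have := h i [l] (by simp) p
    simpa [DAlg.wd] using this
  obtain ⟨M1, hM1, m1⟩ := unif (α := R × κ)
    (p := fun x C => ∀ i p, ‖((d i).rays x.1.1).t x.2 p‖ ≤ C)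
    (fun a C C' h h' i p => (h' i p).trans h) (fun x => ex0 (hF.t x.1.1 x.1.2 x.2))
  obtain ⟨M2, hM2, m2⟩ := unif (α := R × κ)
    (p := fun x C => ∀ i p, ‖((d i).rays x.1.1).w x.2 p‖ ≤ C)
    (fun a C C' h h' i p => (h' i p).trans h) (fun x => ex0 (hF.w x.1.1 x.1.2 x.2))
  obtain ⟨M3, hM3, m3⟩ := unif (α := R × κ × κ)
    (p := fun x C => ∀ i p, ‖S.D x.2.1 (((d i).rays x.1.1).w x.2.2) p‖ ≤ C)
    (fun a C C' h h' i p => (h' i p).trans h)
    (fun x => ex1 x.2.1 (hF.w x.1.1 x.1.2 x.2.2))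
  obtain ⟨A0, hA0⟩ : ∃ A0 : ℝ, A0 = A1 + A2 + A3 := ⟨_, rfl⟩
  obtain ⟨M, hM⟩ : ∃ M : ℝ, M = M1 + M2 + M3 := ⟨_, rfl⟩
  have hA00 : 0 ≤ A0 := by linarith
  have hM0 : 0 ≤ M := by linarith
  obtain ⟨e0, he0p, he1, hc⟩ := exists_e0 (Fintype.card κ : ℝ) M A0 c1 (Nat.cast_nonneg _)
    hM0 hA00 hc1
  have f0' : ∀ i a p, ‖f i a p‖ ≤ A0 := fun i a p => (a1 a i p).trans (by linarith only [he1, he0p, hA0, hA3, hA2])
  have f1' : ∀ i j a p, ‖S.D j (f i a) p‖ ≤ A0 := fun i j a p =>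
    (a2 (j, a) i p).trans (by linarith only [he1, he0p, hA0, hA3, hA1])
  have f2' : ∀ i j k a p, ‖S.D j (S.D k (f i a)) p‖ ≤ A0 * b i := fun i j k a p =>
    (a3 (j, k, a) i p).trans (mul_le_mul_of_nonneg_right (by linarith only [he1, he0p, hA0, hA2, hA1]) (hb0 i))
  have mt' : ∀ i x, usedRay x → ∀ j p, ‖((d i).rays x).t j p‖ ≤ M := fun i x hx j p =>
    (m1 (⟨x, hx⟩, j) i p).trans (by linarith only [he1, he0p, hM, hM3, hM2])
  have mw' : ∀ i x, usedRay x → ∀ j p, ‖((d i).rays x).w j p‖ ≤ M := fun i x hx j p =>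
    (m2 (⟨x, hx⟩, j) i p).trans (by linarith only [he1, he0p, hM, hM3, hM1])
  have mdw' : ∀ i x, usedRay x → ∀ j k p, ‖S.D j (((d i).rays x).w k) p‖ ≤ M :=
    fun i x hx j k p => (m3 (⟨x, hx⟩, j, k) i p).trans (by linarith only [he1, he0p, hM, hM2, hM1])
  have hctx : Ctx S G f b d A0 M c1 κ1 e0 :=
    ⟨hA00, hM0, hc1, hκ1, he0p, he1, iG, rG, sG, hb, sf, rf, f0', f1', f2', F1, F2, hd, hF, hn,
      mt', mw', mdw', hc, hell⟩
  refine assemble' S hCo G f b δ (A0 + 1) e0 hb (by linarith only [he1, he0p, hA0, hA3, hA2, hA1]) he0p hδ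
    (first (hSt Q) hctx hδ hnear hfo) (fun t ht => ?_)
  obtain ⟨Sm⟩ := hSm (1200 * t)
  exact step (hSt Q) hctx (by omega) Sm

end Vale.Agent.P205.F
end
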