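import Vale.Agent.P205.H366.FlexIt

/-!
P205, flexibility: the version for sequences of model maps, with a lower bound for the second
derivatives at every point.
-/

open Filter Topology

noncomputable section

namespace Vale.Agent.P205.F

universe u

variable {P : Type u} {κ : Type} [Fintype κ] {S : DAlg P κ}

/-- crude upper bound for the Gram determinant -/
lemma gram3_le {x y z : Fin 4 → P → ℂ} {p : P} {C Z : ℝ} (hx : ∀ a, ‖x a p‖ ≤ C)
    (hy : ∀ a, ‖y a p‖ ≤ C) (hz : ∀ a, ‖z a p‖ ≤ Z) :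
    (gram3 x y z p).re ≤ 384 * C ^ 4 * Z ^ 2 := by
  have hC : 0 ≤ C := (norm_nonneg _).trans (hx 0)
  have hZ : 0 ≤ Z := (norm_nonneg _).trans (hz 0)
  have hd : ∀ {u v : Fin 4 → P → ℂ} {A B : ℝ}, 0 ≤ A → (∀ a, ‖u a p‖ ≤ A) → (∀ a, ‖v a p‖ ≤ B) →
      ‖dot u v p‖ ≤ 4 * (A * B) := by
    intro u v A B hA hu hv
    unfold dot
    refine (norm_sum_le _ _).trans ?_
    have : ∀ a ∈ (Finset.univ : Finset (Fin 4)), ‖u a p * v a p‖ ≤ A * B := fun a _ => by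
      rw [norm_mul]
      exact mul_le_mul (hu a) (hv a) (norm_nonneg _) hA
    refine (Finset.sum_le_sum this).trans (le_of_eq ?_)
    simp
  have hxx := hd hC hx hx
  have hxy := hd hC hx hy
  have hyy := hd hC hy hy
  have hxz := hd hC hx hz
  have hyz := hd hC hy hz
  have hzz := hd hZ hz hz
  have hm : ∀ {a b c : ℂ} {A B D : ℝ}, 0 ≤ A → 0 ≤ B → ‖a‖ ≤ A → ‖b‖ ≤ B → ‖c‖ ≤ D →
      ‖a * (b * c)‖ ≤ A * (B * D) := by
    intro a b c A B D hA hB ha hb hc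
    rw [norm_mul, norm_mul]
    exact mul_le_mul ha (mul_le_mul hb hc (norm_nonneg _) hB)
      (mul_nonneg (norm_nonneg _) (norm_nonneg _)) hA
  have h0 : 0 ≤ 4 * (C * C) := by positivity
  have h1 : 0 ≤ 4 * (C * Z) := by positivity
  have e : gram3 x y z p =
      dot x x p * (dot y y p * dot z z p) - dot x x p * (dot y z p * dot y z p)
      - dot x y p * (dot x y p * dot z z p) + dot x y p * (dot y z p * dot x z p)
      + dot x z p * (dot x y p * dot y z p) - dot x z p * (dot y y p * dot x z p) := by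
    unfold gram3
    ring
  refine (Complex.re_le_norm _).trans ?_
  rw [e]
  have t1 := hm h0 h0 hxx hyy hzz
  have t2 := hm h0 h1 hxx hyz hyz
  have t3 := hm h0 h0 hxy hxy hzz
  have t4 := hm h0 h1 hxy hyz hxz
  have t5 := hm h1 h0 hxz hxy hyz
  have t6 := hm h1 h0 hxz hyy hxz
  have n1 := norm_sub_le (dot x x p * (dot y y p * dot z z p)) (dot x x p * (dot y z p * dot y z p))
  have n2 := norm_sub_le (dot x x p * (dot y y p * dot z z p) - dot x x p * (dot y z p * dot y z p))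
    (dot x y p * (dot x y p * dot z z p))
  have n3 := norm_add_le (dot x x p * (dot y y p * dot z z p) - dot x x p * (dot y z p * dot y z p)
    - dot x y p * (dot x y p * dot z z p)) (dot x y p * (dot y z p * dot x z p))
  have n4 := norm_add_le (dot x x p * (dot y y p * dot z z p) - dot x x p * (dot y z p * dot y z p)
    - dot x y p * (dot x y p * dot z z p) + dot x y p * (dot y z p * dot x z p))
    (dot x z p * (dot x y p * dot y z p))
  have n5 := norm_sub_le (dot x x p * (dot y y p * dot z z p) - dot x x p * (dot y z p * dot y z p)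
    - dot x y p * (dot x y p * dot z z p) + dot x y p * (dot y z p * dot x z p)
    + dot x z p * (dot x y p * dot y z p)) (dot x z p * (dot y y p * dot x z p))
  have s1 : 4 * (C * C) * (4 * (C * C) * (4 * (Z * Z))) = 64 * C ^ 4 * Z ^ 2 := by ring
  have s2 : 4 * (C * C) * (4 * (C * Z) * (4 * (C * Z))) = 64 * C ^ 4 * Z ^ 2 := by ring
  have s5 : 4 * (C * Z) * (4 * (C * C) * (4 * (C * Z))) = 64 * C ^ 4 * Z ^ 2 := by ring
  rw [s1] at t1 t3
  rw [s2] at t2 t4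
  rw [s5] at t5 t6
  linarith only [t1, t2, t3, t4, t5, t6, n1, n2, n3, n4, n5]

/-- the version for sequences, with control of the distance to the model maps -/
def DAlg.T1S' (S : DAlg P κ) (G : κ → κ → P → ℂ) : Prop :=
    ∃ κ1 : ℝ, 0 < κ1 ∧ ∀ (Lam δ : ℕ → ℝ) (f : ℕ → Fin 4 → P → ℂ) (c0 : ℝ),
      0 < c0 → (∀ i, 1 ≤ Lam i) → (∀ i, 0 < δ i) → (∀ i, δ i ≤ 1) →
      Filter.Tendsto δ Filter.atTop (nhds 0) →
      (∀ i a, S.Sm (f i a)) → (∀ i a, Rl (f i a)) →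
      (∀ a, S.FO Lam (fun _ => 1) (fun i => f i a)) →
      (∀ j a, S.FO Lam (fun _ => 1) (fun i => S.D j (f i a))) →
      (∀ i p, ∃ j1 j2 j k, c0 * Lam i ^ 2 ≤
        (gram3 (S.Dv j1 (f i)) (S.Dv j2 (f i)) (S.Dv j (S.Dv k (f i))) p).re) →
      (∀ i j k p, ‖G j k p - S.met (f i) j k p - δ i * G j k p‖ ≤ κ1 * δ i) →
      (∀ j k, S.FO Lam δ (fun i p => G j k p - S.met (f i) j k p)) →
      ∀ e1 : ℝ, 0 < e1 → ∀ᶠ i in atTop,
        ∃ F : Fin 4 → P → ℂ, (∀ a, S.Sm (F a)) ∧ (∀ a, Rl (F a)) ∧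
          (∀ j k p, S.met F j k p = G j k p) ∧ (∀ a p, ‖F a p - f i a p‖ ≤ e1) ∧
          ∀ j k a p, ‖S.D j (S.D k (F a)) p - S.D j (S.D k (f i a)) p‖ ≤ e1 * Lam i

theorem DAlg.T1U'.t1s (h : S.T1U') {G : κ → κ → P → ℂ} (h1 : S.IsT G) (h2 : ∀ j k, Rl (G j k))
    (h3 : ∀ j k, S.Sm (G j k)) (h4 : S.HasBoxes G) : S.T1S' G := by
  obtain ⟨κ0, hκ0, h⟩ := h
  obtain ⟨n, ⟨B⟩⟩ := h4 κ0 hκ0
  obtain ⟨κ1, hκ1, h⟩ := h (Fin n) G h1 h2 h3 B
  refine ⟨κ1, hκ1, fun Lam δ f c0 hc hL hδ hδ1 hlim hs hr h1 h2 h3 h4 h5 e1 he1 => ?_⟩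
  obtain ⟨δ0, hδ0, h6⟩ := h (ULift.{u} ℕ) (fun i => Lam i.down) (fun i => δ i.down)
    (fun i => f i.down) c0 hc (fun i => hL _) (fun i => hδ _) (fun i => hδ1 _)
    (fun i => hs _) (fun i => hr _) (fun a => DAlg.FO.reindex ULift.down (h1 a))
    (fun j a => DAlg.FO.reindex ULift.down (h2 j a)) (fun i => h3 _) (fun i => h4 _)
    (fun j k => DAlg.FO.reindex ULift.down (h5 j k)) e1 he1
  filter_upwards [hlim.eventually_le_const hδ0] with i hi
  exact h6 ⟨i⟩ hi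

/-- exact maps close to the model maps, whose second derivatives are large at every point -/
theorem DAlg.T1S'.strong {G : κ → κ → P → ℂ} (h : S.T1S' G) :
    ∃ κ1 : ℝ, 0 < κ1 ∧ ∀ (Lam δ : ℕ → ℝ) (f : ℕ → Fin 4 → P → ℂ) (c0 : ℝ),
      0 < c0 → (∀ i, 1 ≤ Lam i) → Tendsto Lam atTop atTop → (∀ i, 0 < δ i) → (∀ i, δ i ≤ 1) →
      Filter.Tendsto δ Filter.atTop (nhds 0) →
      (∀ i a, S.Sm (f i a)) → (∀ i a, Rl (f i a)) →
      (∀ a, S.FO Lam (fun _ => 1) (fun i => f i a)) →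
      (∀ j a, S.FO Lam (fun _ => 1) (fun i => S.D j (f i a))) →
      (∀ i p, ∃ j1 j2 j k, c0 * Lam i ^ 2 ≤
        (gram3 (S.Dv j1 (f i)) (S.Dv j2 (f i)) (S.Dv j (S.Dv k (f i))) p).re) →
      (∀ i j k p, ‖G j k p - S.met (f i) j k p - δ i * G j k p‖ ≤ κ1 * δ i) →
      (∀ j k, S.FO Lam δ (fun i p => G j k p - S.met (f i) j k p)) →
      ∀ e1 : ℝ, 0 < e1 → ∀ R : ℝ, ∀ᶠ i in atTop,
        ∃ F : Fin 4 → P → ℂ, (∀ a, S.Sm (F a)) ∧ (∀ a, Rl (F a)) ∧
          (∀ j k p, S.met F j k p = G j k p) ∧ (∀ a p, ‖F a p - f i a p‖ ≤ e1) ∧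
          ∀ p, ∃ j k a, R ≤ ‖S.D j (S.D k (F a)) p‖ := by
  obtain ⟨κ1, hκ1, h⟩ := h
  refine ⟨κ1, hκ1, fun Lam δ f c0 hc hL hLt hδ hδ1 hlim hs hr h1 h2 h3 h4 h5 e1 he1 R => ?_⟩
  obtain ⟨C, hC1, hC⟩ := It.fo_pt (α := κ × Fin 4) (fun x => h2 x.1 x.2)
  have hC0 : 0 < C := by linarith
  -- the lower bound for the model maps
  set c : ℝ := Real.sqrt (c0 / (384 * C ^ 4)) with hcdef
  have hcc : 0 < c := Real.sqrt_pos.2 (by positivity)
  have hc2 : c ^ 2 * (384 * C ^ 4) = c0 := by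
    rw [hcdef, Real.sq_sqrt (by positivity)]
    field_simp
  have hlow : ∀ i p, ∃ j k a, c * Lam i ≤ ‖S.D j (S.D k (f i a)) p‖ := by
    intro i p
    obtain ⟨j1, j2, j, k, hg⟩ := h3 i p
    by_contra hcon
    push Not at hcon
    have hLi : 0 < Lam i := by linarith [hL i]
    -- strict upper bound
    obtain ⟨Z, hZ1, hZ2⟩ : ∃ Z : ℝ, Z < c * Lam i ∧ ∀ a, ‖S.D j (S.D k (f i a)) p‖ ≤ Z := by
      refine ⟨Finset.univ.sup' Finset.univ_nonempty fun a : Fin 4 => ‖S.D j (S.D k (f i a)) p‖,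
        ?_, fun a => Finset.le_sup' (fun a : Fin 4 => ‖S.D j (S.D k (f i a)) p‖)
          (Finset.mem_univ a)⟩
      rw [Finset.sup'_lt_iff]
      exact fun a _ => hcon j k a
    have hZ0 : 0 ≤ Z := (norm_nonneg _).trans (hZ2 0)
    have hb := gram3_le (x := S.Dv j1 (f i)) (y := S.Dv j2 (f i)) (z := S.Dv j (S.Dv k (f i)))
      (p := p) (fun a => hC (j1, a) i p) (fun a => hC (j2, a) i p) hZ2
    have h6 : Z ^ 2 < (c * Lam i) ^ 2 := pow_lt_pow_left₀ hZ1 hZ0 (by norm_num)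
    have h7 : 384 * C ^ 4 * Z ^ 2 < 384 * C ^ 4 * (c * Lam i) ^ 2 :=
      mul_lt_mul_of_pos_left h6 (by positivity)
    have h8 : 384 * C ^ 4 * (c * Lam i) ^ 2 = c0 * Lam i ^ 2 := by
      rw [← hc2]; ring
    linarith
  have he2 : 0 < min e1 (c / 2) := lt_min he1 (by positivity)
  filter_upwards [h Lam δ f c0 hc hL hδ hδ1 hlim hs hr h1 h2 h3 h4 h5 _ he2,
    hLt.eventually_ge_atTop (R / (c / 2))] with i hi hLi
  obtain ⟨F, g1, g2, g3, g4, g5⟩ := hi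
  refine ⟨F, g1, g2, g3, fun a p => (g4 a p).trans (min_le_left _ _), fun p => ?_⟩
  obtain ⟨j, k, a, hlo⟩ := hlow i p
  refine ⟨j, k, a, ?_⟩
  have h6 := g5 j k a p
  have hLi0 : 0 ≤ Lam i := by linarith [hL i]
  have h7 : min e1 (c / 2) * Lam i ≤ c / 2 * Lam i :=
    mul_le_mul_of_nonneg_right (min_le_right _ _) hLi0
  have h8 : R ≤ c / 2 * Lam i := by
    have h81 := (div_le_iff₀ (show (0 : ℝ) < c / 2 by positivity)).1 hLi
    linarith
  have h9 := norm_sub_norm_le (S.D j (S.D k (f i a)) p) (S.D j (S.D k (F a)) p)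
  rw [norm_sub_rev] at h9
  have h10 : c * Lam i = c / 2 * Lam i + c / 2 * Lam i := by ring
  linarith

end Vale.Agent.P205.F

end
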